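import Vale.Agent.P204.Tame.Main

/-!
Donaldson's question: on every closed four-manifold a tamed almost complex structure has a
compatible symplectic form.
-/

namespace Vale.Agent.Results.P204.TamedToCompatible

open Vale.Agent.P204

theorem result : DonaldsonTamedToCompatible :=
  Tame.Mfd.donaldsonTamedToCompatible

end Vale.Agent.Results.P204.TamedToCompatible
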